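import Vale.Agent.P273.H973.One
import Vale.Agent.P273.H879.OneNode

/-!
# P273, row ASY1 (helper730): the one mark form near the divisor where two roots coincide

`q` = merged configuration (the roots `k`, `k+1` are both `e`), `bd k q d` = the roots `e - d`,
`e + d` instead. Neck coordinates of a mark: `X Y = d^2`, `x = e + (X + Y)/2`. The length of the
neck of radius `c` is `yl c d = 2 log (c / |d|)`.
-/

noncomputable section

namespace Vale.Agent.P273.H730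

open Set Filter H681 H95 H973
open scoped Topology ContDiff

/-- The class of the pair `k`. -/
def alc (k : Fin 5) : Fin 6 → ℝ := fun j => if j = k.castSucc ∨ j = k.succ then 1 else 0

/-- The roots: centre `q k`, half difference `d`. -/
abbrev bd (k : Fin 5) (q : C6) (d : ℂ) : C6 := H828.pr k q (q k.castSucc) d

/-- The direction of the roots: `δ` moves the merged configuration, `lam` = logarithmic derivative
of the half difference. -/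
abbrev bw (k : Fin 5) (δ : C6) (d lam : ℂ) : C6 := H828.pr k δ (δ k.castSucc) (d * lam)

/-- The length of the neck. -/
def yl (c : ℝ) (d : ℂ) : ℝ := 2 * Real.log (c / ‖d‖)

/-- Position of a mark in the neck. -/
def xn (k : Fin 5) (q : C6) (X Y : ℂ) : ℂ := q k.castSucc + (X + Y) / 2

/-- Direction of the roots and of a mark in the neck: `lX`, `lY` = logarithmic derivatives of the
neck coordinates. -/
def nv (k : Fin 5) (δ : C6) (d X Y lX lY : ℂ) : E1 :=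
  (bw k δ d ((lX + lY) / 2), δ k.castSucc + (X * lX + Y * lY) / 2)

/-- Admissible roots near the divisor. -/
structure Adm (k : Fin 5) (U : Set C6) (c M₀ : ℝ) (q : C6) (d : ℂ) : Prop where
  qU : q ∈ U
  qX : q ∈ H828.XD k
  d0 : d ≠ 0
  len : M₀ ≤ yl c d
  mem : bd k q d ∈ XX

/-- A mark in the neck. -/
structure InNeck (k : Fin 5) (c : ℝ) (q : C6) (d X Y v : ℂ) : Prop where
  hXY : X * Y = d ^ 2
  hX : ‖X‖ ≤ c
  hY : ‖Y‖ ≤ c
  hv : On1 false (bd k q d, xn k q X Y) v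

/-- A mark on the core, in the chart `s`. -/
structure InCore (k : Fin 5) (c R₀ : ℝ) (q : C6) (d : ℂ) (s : Bool) (z v : ℂ) : Prop where
  zone : if s then ‖z‖ ≤ R₀⁻¹ else ‖z‖ ≤ R₀ ∧ c / 4 ≤ ‖z - q k.castSucc‖
  hv : On1 s (bd k q d, z) v

/-- **Neck bounds.** Types of classes: any / no period on the vanishing cycle / the class of the
pair. Last two clauses: the Euler direction (the fractions of the length are fixed). -/
def NeckO (O : One) : Prop := ∀ k : Fin 5, ∀ q₀ ∈ H828.XD k, ∃ U ∈ 𝓝 q₀, ∃ c₀ > 0,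
  ∀ c, 0 < c → c ≤ c₀ → ∃ M₀ B : ℝ, 0 < M₀ ∧ 0 < B ∧
  ∀ q d, Adm k U c M₀ q d → ∀ X Y v, InNeck k c q d X Y v →
    (∀ (δ : C6) (lX lY : ℂ) (ξ : Fin 6 → ℝ), IsCl ξ →
      |O.η ξ false (bd k q d, xn k q X Y) v (nv k δ d X Y lX lY)| ≤
        B * ‖ξ‖ * (‖δ‖ + ‖lX‖ + ‖lY‖) ∧
      (ξ k.castSucc = ξ k.succ →
        |O.η ξ false (bd k q d, xn k q X Y) v (nv k δ d X Y lX lY)| ≤
          B * ‖ξ‖ * (‖δ‖ + (‖X‖ + (yl c d)⁻¹) * ‖lX‖ + (‖Y‖ + (yl c d)⁻¹) * ‖lY‖)) ∧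
      |O.η (alc k) false (bd k q d, xn k q X Y) v (nv k δ d X Y lX lY)| ≤
        B * (yl c d)⁻¹ * (‖δ‖ + ‖lX‖ + ‖lY‖)) ∧
    ∀ (ξ : Fin 6 → ℝ), IsCl ξ →
      |O.η ξ false (bd k q d, xn k q X Y) v (nv k 0 d X Y
        (((yl c d)⁻¹ * Real.log (‖X‖ / c) : ℝ) : ℂ) (((yl c d)⁻¹ * Real.log (‖Y‖ / c) : ℝ) : ℂ))| ≤
        B * ‖ξ‖ * (yl c d)⁻¹ ∧
      |O.η (alc k) false (bd k q d, xn k q X Y) v (nv k 0 d X Y
        (((yl c d)⁻¹ * Real.log (‖X‖ / c) : ℝ) : ℂ) (((yl c d)⁻¹ * Real.log (‖Y‖ / c) : ℝ) : ℂ))| ≤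
        B * ((yl c d)⁻¹) ^ 2

/-- **Core bounds** (`R₀` is large, so that the far zone `|w| ≤ 1/R₀` is away from the roots). -/
def CoreO (O : One) : Prop := ∀ k : Fin 5, ∀ q₀ ∈ H828.XD k, ∃ U ∈ 𝓝 q₀, ∃ R₁ > 0,
  ∀ c, 0 < c → ∀ R₀ ≥ R₁, ∃ M₀ B : ℝ, 0 < M₀ ∧ 0 < B ∧
  ∀ q d, Adm k U c M₀ q d → ∀ s z v, InCore k c R₀ q d s z v →
    ∀ (δ : C6) (lam dz : ℂ) (ξ : Fin 6 → ℝ), IsCl ξ →
      |O.η ξ s (bd k q d, z) v (bw k δ d lam, dz)| ≤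
        B * ‖ξ‖ * (‖δ‖ + ‖dz‖ + (yl c d)⁻¹ * ‖lam‖ + |lam.im|) ∧
      (ξ k.castSucc = ξ k.succ →
        |O.η ξ s (bd k q d, z) v (bw k δ d lam, dz)| ≤
          B * ‖ξ‖ * (‖δ‖ + ‖dz‖ + (yl c d)⁻¹ * ‖lam‖)) ∧
      |O.η (alc k) s (bd k q d, z) v (bw k δ d lam, dz)| ≤
        B * (yl c d)⁻¹ * (‖δ‖ + ‖dz‖ + (yl c d)⁻¹ * ‖lam‖)

/-- Zero near the other roots, uniformly. -/
def RootO (O : One) : Prop := ∀ k : Fin 5, ∀ q₀ ∈ H828.XD k, ∃ U ∈ 𝓝 q₀, ∃ r > 0,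
  ∀ q ∈ U, q ∈ H828.XD k → ∀ d : ℂ, ‖d‖ < r → bd k q d ∈ XX →
    ∀ l : Fin 6, l ≠ k.castSucc → l ≠ k.succ → ∀ ξ x v, IsCl ξ → ‖x - q l‖ < r →
      On1 false (bd k q d, x) v → O.η ξ false (bd k q d, x) v = 0

/-- Zero near the two roots of the pair, in discs of radius `|d| / 8`. -/
def PairO (O : One) : Prop := ∀ k : Fin 5, ∀ q₀ ∈ H828.XD k, ∃ U ∈ 𝓝 q₀, ∃ r > 0,
  ∀ q ∈ U, q ∈ H828.XD k → ∀ d : ℂ, ‖d‖ < r → bd k q d ∈ XX →
    ∀ σ : ℂ, σ ^ 2 = 1 → ∀ ξ x v, IsCl ξ → ‖x - (q k.castSucc + σ * d)‖ < ‖d‖ / 8 →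
      On1 false (bd k q d, x) v → O.η ξ false (bd k q d, x) v = 0

/-- No vertical part for `|x| > R`, uniformly. -/
def FarO (O : One) : Prop := ∀ k : Fin 5, ∀ q₀ ∈ H828.XD k, ∃ U ∈ 𝓝 q₀, ∃ r > 0, ∃ R > 0,
  ∀ q ∈ U, q ∈ H828.XD k → ∀ d : ℂ, ‖d‖ < r → bd k q d ∈ XX →
    ∀ ξ x v, IsCl ξ → R < ‖x‖ → On1 false (bd k q d, x) v → ∀ w : ℂ,
      O.η ξ false (bd k q d, x) v (0, w) = 0

/-- **What the one mark form has to satisfy near the divisor.** -/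
structure OneAsy (O : One) : Prop where
  neck : NeckO O
  core : CoreO O
  root : RootO O
  pair : PairO O
  far : FarO O

end Vale.Agent.P273.H730

end
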