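import Vale.Agent.P273.H865.ClT

/-!
# P273, row ASY1 (helper730): the clause `t1`, weights `1/y + |X| + |Y|`
-/

noncomputable section

namespace Vale.Agent.P273.H730.T1

open Set Filter H681 H95 H973 H730 H879 H828 H205 H865
open H578 (Pt Nr del Brd PX cX pX rad LogN Kn)
open scoped Topology ContDiff

theorem wt1_nonneg {k : Fin 5} {c : ℝ} {q : C6} {d : ℂ} (hy : 0 ≤ (yl c d)⁻¹) (x : ℂ) :
    0 ≤ wt1 k c q d x := by
  unfold wt1
  positivity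

/-- weights of near marks -/
theorem wt1_near {k : Fin 5} {c : ℝ} {q : C6} {d : ℂ} (hy : 0 ≤ (yl c d)⁻¹) {ρ : ℝ}
    (hρ : ρ ≤ 1 / 256) {P Q : ℂ × ℂ} (hP : Pt (bd k q d) P) (hN : Nr ρ (bd k q d) P Q) :
    wt1 k c q d Q.1 ≤ 2 * wt1 k c q d P.1 := by
  have h1 := norm_sub_of_nr hρ hP hN k.castSucc
  have h2 := norm_sub_of_nr hρ hP hN k.succ
  rw [bd_castSucc] at h1
  rw [bd_succ] at h2
  unfold wt1
  have e1 : Q.1 - q k.castSucc - d = (P.1 - (q k.castSucc + d)) - (P.1 - Q.1) := by ring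
  have e2 : Q.1 - q k.castSucc + d = (P.1 - (q k.castSucc - d)) - (P.1 - Q.1) := by ring
  have e3 : P.1 - q k.castSucc - d = P.1 - (q k.castSucc + d) := by ring
  have e4 : P.1 - q k.castSucc + d = P.1 - (q k.castSucc - d) := by ring
  rw [e1, e2, e3, e4]
  have h3 := norm_sub_le (P.1 - (q k.castSucc + d)) (P.1 - Q.1)
  have h4 := norm_sub_le (P.1 - (q k.castSucc - d)) (P.1 - Q.1)
  have h5 := norm_nonneg (P.1 - (q k.castSucc + d))
  have h6 := norm_nonneg (P.1 - (q k.castSucc - d))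
  linarith

/-- **the leg of the gauge from data of near active marks**, weights `wt1` -/
theorem near_bound1 {X : Type} [NormedAddCommGroup X] [NormedSpace ℝ X] {O : One} {k : Fin 5}
    {S : L → Bool} {t : Bool} {φ : X → E} {σ : X → L → ℂ} {p : X} (hBr : Brd S φ σ p) {q : C6}
    {dd : ℂ} (hroots : (φ p).1 = bd k q dd) {r ρR c : ℝ} (hyl : 0 ≤ (yl c dd)⁻¹)
    (hzz : ∀ i : Fin 7, (∀ᶠ z in 𝓝 p, ∀ ξ, IsCl ξ →
        gfun (cX S t φ σ p) (pX O ξ S t φ σ p) i z = 0) ∨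
      (fin S t (φ p) i ∧ ActP (29 / 256) (29 / 32 * r) (35 / 32 * ρR) k q dd
        (PX S t φ σ p i).1))
    {ξ : Fin 6 → ℝ} (hξ : IsCl ξ) {w : X} {A W B : ℝ} (hA0 : 0 ≤ A) (hW : 0 ≤ W) (hB : 0 ≤ B)
    (hdel : ∀ (P Q : ℂ × ℂ) (ρ : ℝ), Pt (bd k q dd) P → 0 < ρ → ρ ≤ 1 / 256 →
      Nr ρ (bd k q dd) P Q → |del (etx O ξ) (bd k q dd) P Q| ≤ A * wt1 k c q dd P.1)
    (hpair : ∀ i l : Fin 7, fin S t (φ p) i → fin S t (φ p) l →
      Nr (rad i) (φ p).1 (PX S t φ σ p i) (PX S t φ σ p l) →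
      ActP (29 / 256) (29 / 32 * r) (35 / 32 * ρR) k q dd (PX S t φ σ p i).1 →
      ∃ (ζ : ℂ) (ρ : ℝ), 0 ≤ ρ ∧ Kn 7 * (ρ * (A * wt1 k c q dd (PX S t φ σ p i).1)) ≤ W ∧
        LogN (fun q => (φ q).1) (fun q => PX S t φ σ q i) p w ζ ρ ∧
        LogN (fun q => (φ q).1) (fun q => PX S t φ σ q l) p w ζ ρ)
    (hleg : ∀ i : Fin 7, |O.η ξ (S (i, t)) (prj (i, t) (φ p)) (σ p (i, t))
      (prj (i, t) (fderiv ℝ φ p w))| ≤ B) (j : Fin 7) :
    |th O (j, t) ξ S (φ p) (σ p) (fderiv ℝ φ p w)| ≤ (1 + H668.CW 2) * (W + 2 * B) := by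
  have hw0 : 0 ≤ W + 2 * B := by positivity
  have hK7 := H578.Kn_pos 7
  refine H668.leg_bound_w (t := t) hBr O hξ (v := w)
    (w := fun i => A * wt1 k c q dd (PX S t φ σ p i).1)
    (w' := fun _ => W + 2 * B) (K := 2) (fun i => mul_nonneg hA0 (wt1_nonneg hyl _))
    (fun _ => hw0) (by norm_num) ?_ j (B := 1) ?_
  · intro i
    rcases hzz i with h | ⟨hfi, hact⟩
    · exact Or.inl (h.mono fun z hz => hz ξ hξ)
    right
    intro l hli _ hfl hN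
    have hPi : Pt (bd k q dd) (PX S t φ σ p i) := by
      have := hBr.pt_self (t := t) hfi
      rwa [hroots] at this
    have hN' := hN
    rw [hroots] at hN'
    obtain ⟨ζ, ρ, hρ0, hρ1, hl1, hl2⟩ := hpair i l hfi hfl hN hact
    have hcX : |fderiv ℝ (cX S t φ σ p i l) p w| ≤ Kn 7 * ρ :=
      H578.abs_fderiv_chiT_le (a := fin S t (φ p)) (b := fun q => (φ q).1)
        (P := PX S t φ σ) (n := 7) hBr.contDiffAt_b
        (fun _ hm => hBr.contDiffAt_PX hm) (fun _ hm => hBr.pt_self hm) hρ0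
        (fun _ _ _ => ⟨hl1, hl2⟩)
    have e3 : ∀ m : Fin 7, fin S t (φ p) m →
        |H578.pb (etx O ξ) (fun q => (φ q).1) (fun q => PX S t φ σ q m) p w| ≤ B := by
      intro m hm
      rw [hBr.pb_eq O hξ hm]
      exact hleg m
    have hwi := mul_nonneg hA0 (wt1_nonneg (k := k) (q := q) hyl (PX S t φ σ p i).1)
    refine ⟨?_, ?_, ?_, ?_, ?_⟩
    · rw [hroots]
      exact hdel _ _ _ hPi (H578.rad_pos i) (rad_le256 i) hN'
    · calc |fderiv ℝ (cX S t φ σ p i l) p w| * (A * wt1 k c q dd (PX S t φ σ p i).1)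
          ≤ Kn 7 * ρ * (A * wt1 k c q dd (PX S t φ σ p i).1) :=
            mul_le_mul_of_nonneg_right hcX hwi
        _ = Kn 7 * (ρ * (A * wt1 k c q dd (PX S t φ σ p i).1)) := by ring
        _ ≤ W := hρ1
        _ ≤ W + 2 * B := by linarith
    · refine (abs_sub _ _).trans ?_
      have h1 := e3 i hfi
      have h2 := e3 l hfl
      linarith
    · have h1 := mul_le_mul_of_nonneg_left (wt1_near hyl (rad_le256 i) hPi hN') hA0
      calc A * wt1 k c q dd (PX S t φ σ p l).1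
          ≤ A * (2 * wt1 k c q dd (PX S t φ σ p i).1) := h1
        _ = 2 * (A * wt1 k c q dd (PX S t φ σ p i).1) := by ring
    · show W + 2 * B ≤ 2 * (W + 2 * B)
      linarith
  · refine (hleg j).trans ?_
    linarith

/-- the bounds at one point -/
theorem t1_point {O : One} {k : Fin 5} {c : ℝ} {R : Region1} {m : Fin (R.n + 1)}
    {S : L → Bool} {p : Co1 R m} {g : ℂ} {v : L → ℂ} (hc : 0 < c) (hy : 1 ≤ p.2.2.1 ())
    {σ : Co1 R m → L → ℂ} (hBr : Brd S (toE k c) σ p) (hσ : σ p = R.sht (toSp c p) g v)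
    {r ρR C B3 B4 : ℝ} (hC : 0 < C) (hB3 : 0 < B3) (hB4 : 0 < B4)
    (hz : ∀ (t : Bool) (i : Fin 7), (∀ᶠ z in 𝓝 p, ∀ ξ, IsCl ξ →
        gfun (cX S t (toE k c) σ p) (pX O ξ S t (toE k c) σ p) i z = 0) ∨
      (fin S t (toE k c p) i ∧ ActP (29 / 256) (29 / 32 * r) (35 / 32 * ρR) k (qb k p) (zh c p)
        (PX S t (toE k c) σ p i).1))
    {d : Dir1 R m}
    (hP : ∀ (t : Bool) (i j : Fin 7), fin S t (toE k c p) i → fin S t (toE k c p) j →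
      Nr (rad i) (toE k c p).1 (PX S t (toE k c) σ p i) (PX S t (toE k c) σ p j) →
      ActP (29 / 256) (29 / 32 * r) (35 / 32 * ρR) k (qb k p) (zh c p)
        (PX S t (toE k c) σ p i).1 →
      ∃ (ζ : ℂ) (ρ : ℝ), 0 ≤ ρ ∧
        ρ * wt1 k c (qb k p) (zh c p) (PX S t (toE k c) σ p i).1 ≤ C * H879.cst p d ∧
        LogN (fun q => (toE k c q).1) (fun q => PX S t (toE k c) σ q i) p (evec p d) ζ ρ ∧
        LogN (fun q => (toE k c q).1) (fun q => PX S t (toE k c) σ q j) p (evec p d) ζ ρ)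
    {ξ : Fin 6 → ℝ} (hξ : IsCl ξ)
    (hD : ∀ (P Q : ℂ × ℂ) (ρ : ℝ), Pt (bd k (qb k p) (zh c p)) P → 0 < ρ → ρ ≤ 1 / 256 →
      Nr ρ (bd k (qb k p) (zh c p)) P Q →
        |del (etx O ξ) (bd k (qb k p) (zh c p)) P Q| ≤
          B4 * ‖ξ‖ * wt1 k c (qb k p) (zh c p) P.1)
    (hL : ∀ j : L, |legO O k c S p g v ξ j (evec p d)| ≤ B3 * ‖ξ‖ * H879.cst p d) (j : L) :
    |th O j ξ S (toE k c p) (R.sht (toSp c p) g v) (fderiv ℝ (toE k c) p (evec p d))| ≤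
      (1 + H668.CW 2) * (Kn 7 * C * B4 + 2 * B3) * ‖ξ‖ * H879.cst p d := by
  have hK7 := H578.Kn_pos 7
  have hcst := H401.Ch1.cst_nonneg (p := p) (by linarith) d
  have hroots : (toE k c p).1 = bd k (qb k p) (zh c p) := toE_roots k c p
  have hy0 : 0 < p.2.2.1 () := by linarith
  have hyi : 0 < (p.2.2.1 ())⁻¹ := inv_pos.2 hy0
  have hyl : 0 ≤ (yl c (zh c p))⁻¹ := by
    rw [H828.yl_zh hc]
    exact hyi.le
  have h1 := near_bound1 hBr hroots hyl (hz j.2) hξ (w := evec p d) (A := B4 * ‖ξ‖)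
    (W := Kn 7 * C * B4 * (‖ξ‖ * H879.cst p d))
    (B := B3 * ‖ξ‖ * H879.cst p d) (by positivity) (by positivity)
    (by positivity) hD ?_ ?_ j.1
  · rw [hσ] at h1
    refine h1.trans (le_of_eq ?_)
    ring
  · intro i l h1 h2 h3 h4
    obtain ⟨ζ, ρ, a0, a1, a3, a4⟩ := hP j.2 i l h1 h2 h3 h4
    refine ⟨ζ, ρ, a0, ?_, a3, a4⟩
    have h4 : 0 ≤ B4 * ‖ξ‖ := by positivity
    have h5 := mul_le_mul_of_nonneg_left (mul_le_mul_of_nonneg_right a1 h4) hK7.le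
    refine le_trans (le_of_eq ?_) (h5.trans (le_of_eq ?_))
    · ring
    · ring
  · intro i
    rw [hσ]
    exact hL (i, j.2)

/-- the clause `t1` -/
def T1' (O : One) : Prop := ∀ k : Fin 5, ∀ q₀ ∈ H828.XD k, ∃ U ∈ 𝓝 q₀, ∃ c₀ > 0,
  ∀ c, 0 < c → c ≤ c₀ → ∃ R₁ > 0, ∀ R₀ ≥ R₁, ∃ M₀ B : ℝ, 0 < M₀ ∧ 0 < B ∧
  ∀ (R : Region1) (m : Fin (R.n + 1)) (S : L → Bool) (p : Co1 R m) (g : ℂ) (v : L → ℂ),
    InReg k (U ∩ H828.XD k) c R₀ M₀ S p g v → ∀ (j : L) (d : Dir1 R m),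
    ∀ ξ : Fin 6 → ℝ, IsCl ξ → ξ k.castSucc = ξ k.succ →
      |th O j ξ S (toE k c p) (R.sht (toSp c p) g v) (fderiv ℝ (toE k c) p (evec p d))| ≤
        B * ‖ξ‖ * H879.cst p d

/-- **the clause `t1`** -/
theorem t1_of {O : One} (hO : OneAsy O) : T1' O := by
  intro k q₀ hq₀
  obtain ⟨U1, hU1o, hU1, r, hr, ρR, hρR, hbd, hz⟩ := zones O hO.root hO.pair hO.far k hq₀
  obtain ⟨U2, hU2, c2, hc2, hP⟩ := H668.pairLog k hq₀ hr hρR
  obtain ⟨U3, hU3, c3, hc3, hL⟩ := etaLegs_of hO.neck hO.core k q₀ hq₀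
  obtain ⟨U4, hU4, c4, hc4, hD⟩ := H732.V1.delO_of hO.neck hO.core hO.far k q₀ hq₀
  obtain ⟨U5, hU5, δ, hδ, hmem⟩ := exists_bd_mem k hq₀
  obtain ⟨U6, hU6, c6, hc6, hB⟩ := H357.brd_one k hq₀
  refine ⟨U1 ∩ U2 ∩ (U3 ∩ U4) ∩ (U5 ∩ U6), inter_mem (inter_mem (inter_mem (hU1o.mem_nhds hU1) hU2)
    (inter_mem hU3 hU4)) (inter_mem hU5 hU6), min (min c2 c3) (min c4 (min c6 1)),
    lt_min (lt_min hc2 hc3) (lt_min hc4 (lt_min hc6 one_pos)), fun c hc hcc => ?_⟩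
  have hcc2 : c ≤ c2 := hcc.trans ((min_le_left _ _).trans (min_le_left _ _))
  have hcc3 : c ≤ c3 := hcc.trans ((min_le_left _ _).trans (min_le_right _ _))
  have hcc4 : c ≤ c4 := hcc.trans ((min_le_right _ _).trans (min_le_left _ _))
  have hcc6 : c ≤ c6 :=
    hcc.trans ((min_le_right _ _).trans ((min_le_right _ _).trans (min_le_left _ _)))
  obtain ⟨M2, C, hM2, hC, hP⟩ := hP c hc hcc2
  obtain ⟨R3, hR3, hL⟩ := hL c hc hcc3
  obtain ⟨M4, B4, hM4, hB4, hD⟩ := hD c hc hcc4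
  obtain ⟨M6, hM6, hB⟩ := hB c hc hcc6
  refine ⟨max (2 * ρR + 1) R3, lt_max_of_lt_right hR3, fun R₀ hR₀ => ?_⟩
  have hR₀2 : 2 * ρR < R₀ := by
    have := (le_max_left (2 * ρR + 1) R3).trans hR₀
    linarith
  obtain ⟨M3, B3, hM3, hB3, hL⟩ := hL R₀ ((le_max_right _ _).trans hR₀)
  obtain ⟨M5, hM5⟩ := exists_len hc hr hδ
  obtain ⟨M, lM2, lM3, lM4, lM5, lM6, lM1⟩ : ∃ M : ℝ, M2 ≤ M ∧ M3 ≤ M ∧ M4 ≤ M ∧ M5 ≤ M ∧
      M6 ≤ M ∧ 1 ≤ M := ⟨max (max M2 M3) (max (max M4 M5) (max M6 1)),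
    (le_max_left _ _).trans (le_max_left _ _), (le_max_right _ _).trans (le_max_left _ _),
    (le_max_left _ _).trans ((le_max_left _ _).trans (le_max_right _ _)),
    (le_max_right _ _).trans ((le_max_left _ _).trans (le_max_right _ _)),
    (le_max_left _ _).trans ((le_max_right _ _).trans (le_max_right _ _)),
    (le_max_right _ _).trans ((le_max_right _ _).trans (le_max_right _ _))⟩
  have hK7 := H578.Kn_pos 7
  have hCW := H668.CW_nonneg (K := 2) (by norm_num)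
  refine ⟨M, (1 + H668.CW 2) * (Kn 7 * C * B4 + 2 * B3), by linarith, by positivity, ?_⟩
  intro R m S p g v hp j d ξ hξ hk
  have hy : 1 ≤ p.2.2.1 () := lM1.trans hp.y
  have hMM : c * Real.exp (-M / 2) < min r δ := by
    refine lt_of_le_of_lt ?_ hM5
    gcongr
  obtain ⟨hBr, hσ⟩ := hB M lM6 R₀ R m S p g v (H356.inReg_mono
    (K' := U6 ∩ H828.XD k) (fun q hq => ⟨hq.1.2.2, hq.2⟩) le_rfl hp)
  have hP' := hP R₀ hR₀2 R m S p g v (H356.inReg_mono (K' := U2 ∩ H828.XD k)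
    (fun q hq => ⟨hq.1.1.1.2, hq.2⟩) lM2 hp) hBr.mem
  have hL' := hL R m S p g v (H356.inReg_mono (K' := U3 ∩ H828.XD k)
    (fun q hq => ⟨hq.1.1.2.1, hq.2⟩) lM3 hp)
  have hA : Adm k (U1 ∩ U2 ∩ (U3 ∩ U4) ∩ (U5 ∩ U6)) c M (qb k p) (zh c p) :=
    adm_of hc (fun q hq => hmem q hq.2.1) (hMM.trans_le (min_le_right _ _)) le_rfl
      (fun q hq => hq) hp
  have hA4 : Adm k U4 c M4 (qb k p) (zh c p) :=
    { hA with qU := hA.qU.1.2.2, len := lM4.trans hA.len }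
  have hroots : (toE k c p).1 = bd k (qb k p) (zh c p) := toE_roots k c p
  have hzr : ‖zh c p‖ < r := by
    rw [H828.norm_zh hc]
    refine lt_of_le_of_lt ?_ (hMM.trans_le (min_le_left _ _))
    have := hp.y
    gcongr
  have hzz := fun t => hz (qb k p) hA.qU.1.1.1 hA.qX (zh c p) hzr hA.mem (Co1 R m) S t (toE k c)
    _ p hBr hroots
  have hP'' := hP' fun l => hbd _ hA.qU.1.1.1 _ hzr l
  have hdiff : DifferentiableAt ℝ (toE k c : Co1 R m → E) p :=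
    hBr.smφ.differentiableAt (by simp)
  refine t1_point hc hy hBr hσ hC hB3 hB4 hzz ?_ hξ
    (fun P Q ρ h1 h2 h3 h4 => (hD _ _ hA4 P Q ρ h1 h2 h3 h4 ξ hξ).2.1 hk)
    (fun j => ((hL' j d).1 ξ hξ).2 hk) j
  intro t i l h1 h2 h3 h4
  have e1 : PX S t (toE k c) (H357.sg1 R S c p g v) p =
      PP S t (toE k c p) (R.sht (toSp c p) g v) := by
    unfold PX
    rw [hσ]
  rw [e1] at h3 h4
  obtain ⟨s1, s2, hPD⟩ := hP'' t i l h1 h2 h3 h4
  obtain ⟨-, -, ζ, ρ, a4, a5, a6, a7⟩ := hPD d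
  refine ⟨ζ, ρ, a4, ?_, (logN_iff_near hdiff s1 _ _ _).2 a5, (logN_iff_near hdiff s2 _ _ _).2 a6⟩
  rw [e1]
  have e2 : (PP S t (toE k c p) (R.sht (toSp c p) g v) i).1 = (toE k c p).2 (i, t) := by
    unfold PP Xp
    rw [if_neg (by rw [s1]; simp)]
  rw [e2]
  exact a7

/-- **the clause `t1` in the form of `Glue`** -/
theorem clT1 (O : One) (h : OneAsy O) : ∀ k, ∀ q₀ ∈ H828.XD k, NearQ k q₀ (ClT1 O k) := by
  intro k q₀ hq₀
  obtain ⟨U, hU, c₀, hc₀, h⟩ := t1_of h k q₀ hq₀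
  refine ⟨U, hU, c₀, hc₀, fun c hc hcc => ?_⟩
  obtain ⟨R₁, hR₁, h⟩ := h c hc hcc
  refine ⟨R₁, hR₁, fun R₀ hR₀ => ?_⟩
  obtain ⟨M₀, B, hM₀, hB, h⟩ := h R₀ hR₀
  exact ⟨M₀, B, 1, hM₀, hB, one_pos, fun R m S p g v hp j ξ d hξ hk =>
    h R m S p g v hp j d ξ hξ hk⟩

end Vale.Agent.P273.H730.T1

end
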