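import Vale.Agent.P273.H730.Fin0
import Vale.Agent.P273.H730.T1
import Vale.Agent.P273.H401.NkFin

/-!
# P273, row ASY1 (helper730): the bounds of the gauge at one node
-/

namespace Vale.Agent.P273.H730

/-- **the one mark form has the bounds at one node** -/
theorem oneAsy : OneAsy H580.theOne := oneAsy_of H401.Nk.neckF

/-- **the bounds of the legs of the gauge in the regions at one node** -/
theorem asy1 : H879.Asy1 H973.gauge0 :=
  asy1_of_parts H401.Nk.neckF (fun h => H865.clT0 _ h) (fun h => T1.clT1 _ h)
    (fun h => H865.clT2 _ h)

end Vale.Agent.P273.H730
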