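import Vale.Agent.P273.H730.One1
import Vale.Agent.P273.H578.Bridge

/-!
# P273, row ASY1 (helper730): the pieces of the recursion near the divisor

`DelO`: the differences of the one mark form between two marks near each other. `NeckL`, `CoreL`:
logarithmic derivatives of the distances of a mark to the roots.
-/

noncomputable section

namespace Vale.Agent.P273.H730

open Set Filter H681 H95 H973
open H578 (Pt Nr del)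
open scoped Topology ContDiff

/-- Weight of a point for the classes without period on the vanishing cycle:
`1/y + |X| + |Y|`, `|X| + |Y| = |x - e - d| + |x - e + d|`. -/
def wt1 (k : Fin 5) (c : ℝ) (q : C6) (d x : ℂ) : ℝ :=
  (yl c d)⁻¹ + (‖x - q k.castSucc - d‖ + ‖x - q k.castSucc + d‖)

/-- **Differences between near marks**, from `NeckO`, `CoreO`, `FarO`. -/
def DelO (O : One) : Prop := ∀ k : Fin 5, ∀ q₀ ∈ H828.XD k, ∃ U ∈ 𝓝 q₀, ∃ c₀ > 0,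
  ∀ c, 0 < c → c ≤ c₀ → ∃ M₀ B : ℝ, 0 < M₀ ∧ 0 < B ∧
  ∀ q d, Adm k U c M₀ q d → ∀ (P Q : ℂ × ℂ) (ρ : ℝ), Pt (bd k q d) P → 0 < ρ → ρ ≤ 1 / 256 →
    Nr ρ (bd k q d) P Q → ∀ ξ, IsCl ξ →
      |del (etx O ξ) (bd k q d) P Q| ≤ B * ‖ξ‖ ∧
      (ξ k.castSucc = ξ k.succ →
        |del (etx O ξ) (bd k q d) P Q| ≤ B * ‖ξ‖ * wt1 k c q d P.1) ∧
      |del (etx O (alc k)) (bd k q d) P Q| ≤ B * (yl c d)⁻¹

/-- The distances `x - b i` have the logarithmic derivative `ζ` up to `ρ` (`H578.LogN` for a point: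
`b'`, `x'` are the derivatives of the roots and of the mark). -/
def LogP (b b' : Fin 6 → ℂ) (x x' ζ : ℂ) (ρ : ℝ) : Prop :=
  ∀ i, ‖(x' - b' i) - ζ * (x - b i)‖ ≤ ρ * ‖x - b i‖ ^ 3 * H562.qs fun i => x - b i

/-- The data of a neck mark away from the two roots: `ζ = 0`, and `ζ = lX` where `X` dominates. -/
def NeckL : Prop := ∀ k : Fin 5, ∀ q₀ ∈ H828.XD k, ∃ U ∈ 𝓝 q₀, ∃ c₀ > 0,
  ∀ c, 0 < c → c ≤ c₀ → ∃ M₀ B : ℝ, 0 < M₀ ∧ 0 < B ∧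
  ∀ q d, Adm k U c M₀ q d → ∀ X Y : ℂ, X * Y = d ^ 2 → ‖X‖ ≤ c → ‖Y‖ ≤ c →
    ‖d‖ / 10 ≤ ‖xn k q X Y - (q k.castSucc - d)‖ → ‖d‖ / 10 ≤ ‖xn k q X Y - (q k.castSucc + d)‖ →
    ∀ (δ : C6) (lX lY : ℂ),
      LogP (bd k q d) (bw k δ d ((lX + lY) / 2)) (xn k q X Y) (nv k δ d X Y lX lY).2 0
        (B * (‖δ‖ + ‖lX‖ + ‖lY‖)) ∧
      (‖Y‖ ≤ 4 * ‖X‖ →
        LogP (bd k q d) (bw k δ d ((lX + lY) / 2)) (xn k q X Y) (nv k δ d X Y lX lY).2 lX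
          (B * (‖δ‖ + ‖X‖ ^ 2 * ‖lX‖ + ‖d‖ ^ 2 * ‖lY‖ + ‖lY - lX‖ * (‖d‖ / ‖X‖)))) ∧
      (‖X‖ ≤ 4 * ‖Y‖ →
        LogP (bd k q d) (bw k δ d ((lX + lY) / 2)) (xn k q X Y) (nv k δ d X Y lX lY).2 lY
          (B * (‖δ‖ + ‖Y‖ ^ 2 * ‖lY‖ + ‖d‖ ^ 2 * ‖lX‖ + ‖lX - lY‖ * (‖d‖ / ‖Y‖))))

/-- The data of a core mark away from the other roots. -/
def CoreL : Prop := ∀ k : Fin 5, ∀ q₀ ∈ H828.XD k, ∃ U ∈ 𝓝 q₀,
  ∀ c r R₀ : ℝ, 0 < c → 0 < r → ∃ M₀ B : ℝ, 0 < M₀ ∧ 0 < B ∧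
  ∀ q d, Adm k U c M₀ q d → ∀ x : ℂ, ‖x‖ ≤ R₀ → c / 16 ≤ ‖x - q k.castSucc‖ →
    (∀ l : Fin 6, l ≠ k.castSucc → l ≠ k.succ → r ≤ ‖x - q l‖) →
    ∀ (δ : C6) (lam dz : ℂ),
      LogP (bd k q d) (bw k δ d lam) x dz 0 (B * (‖δ‖ + ‖dz‖ + ‖d‖ * ‖lam‖))

/-- **Two neck marks near each other (same sheet) have comparable neck coordinates.** -/
def NeckC : Prop := ∀ (b : Fin 6 → ℂ) (i j : Fin 6) (e d g X Y X' Y' : ℂ) (o : Fin 4 → ℂ)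
    (c ρ : ℝ), i ≠ j → b i = e - d → b j = e + d → d ≠ 0 → 0 < c → ρ ≤ 1 / 256 →
    X * Y = d ^ 2 → X' * Y' = d ^ 2 → ‖X‖ ≤ c → ‖Y‖ ≤ c → ‖X'‖ ≤ c → ‖Y'‖ ≤ c →
    (∀ l, 64 * c ≤ ‖e - o l‖) →
    Nr ρ b (e + (X + Y) / 2,
        g * (∏ l : Fin 4, csq ((e + (X + Y) / 2 - o l) / (e - o l))) * (X - Y) / 2)
      (e + (X' + Y') / 2,
        g * (∏ l : Fin 4, csq ((e + (X' + Y') / 2 - o l) / (e - o l))) * (X' - Y') / 2) →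
    ‖X' - X‖ ≤ ‖X‖ / 4 ∧ ‖Y' - Y‖ ≤ ‖Y‖ / 4

end Vale.Agent.P273.H730

end
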