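import Vale.Agent.P273.H730.Glue
import Vale.Agent.P273.H225.NkC
import Vale.Agent.P273.H214.Disc
import Vale.Agent.P273.H188.Core4
import Vale.Agent.P273.H379.BaseA
import Vale.Agent.P273.H887.Glue1
import Vale.Agent.P273.H973.Gauge0

/-!
# P273, row ASY1 (helper730): the harmonic one mark gauge satisfies `OneAsy`
-/

noncomputable section

namespace Vale.Agent.P273.H730

open Set Filter H681 H95 H973

/-- **The harmonic one mark gauge near the divisor**, from the flat form in the neck. -/
theorem oneAsy_of (hN : H225.NeckF H580.theFlatFam) : OneAsy H580.theOne where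
  neck := H225.neckO_of H580.theFlatFam hN H379.baseA
  core := H188.coreO
  root := H787.rootO_of H214.isCutOf_theOne
  pair := H787.pairO_of H214.isCutOf_theOne
  far := H787.farO_of H214.isCutOf_theOne

/-- **`Asy1` of the harmonic gauge** from the flat form in the neck and the three bounds. -/
theorem asy1_of_parts (hN : H225.NeckF H580.theFlatFam)
    (h0 : OneAsy H580.theOne → ∀ k, ∀ q₀ ∈ H828.XD k, NearQ k q₀ (ClT0 H580.theOne k))
    (h1 : OneAsy H580.theOne → ∀ k, ∀ q₀ ∈ H828.XD k, NearQ k q₀ (ClT1 H580.theOne k))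
    (h2 : OneAsy H580.theOne → ∀ k, ∀ q₀ ∈ H828.XD k, NearQ k q₀ (ClT2 H580.theOne k)) :
    H879.Asy1 gauge0 := by
  have hO := oneAsy_of hN
  exact H356.asy1_of_loc (asyLoc_of_clauses (O := H580.theOne) (Th := gauge0)
    (fun _ _ _ _ _ => rfl) (h0 hO) (h1 hO) (h2 hO)
    (Vale.P273.H887.clRoot_oneOf H580.theFlatFam) (Vale.P273.H887.clCol_oneOf H580.theFlatFam))

end Vale.Agent.P273.H730

end
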