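import Vale.Agent.P273.H356.Loc1
import Vale.Agent.P273.H973.GaugeOf

/-!
# P273, row ASY1 (helper730): the clauses of the bounds near one merged configuration, put together
-/

noncomputable section

namespace Vale.Agent.P273.H730

open Set Filter H681 H95 H879 H356
open scoped Topology ContDiff

/-- A clause `P c B r` near the merged configuration `q₀`. -/
def NearQ (k : Fin 5) (q₀ : C6) (P : ℝ → ℝ → ℝ → ∀ (R : Region1) (m : Fin (R.n + 1)),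
    (L → Bool) → Co1 R m → ℂ → (L → ℂ) → Prop) : Prop :=
  ∃ U ∈ 𝓝 q₀, ∃ c₀ > 0, ∀ c, 0 < c → c ≤ c₀ → ∃ R₁ > 0, ∀ R₀ ≥ R₁,
    ∃ (M₀ B r : ℝ), 0 < M₀ ∧ 0 < B ∧ 0 < r ∧
    ∀ (R : Region1) (m : Fin (R.n + 1)) (S : L → Bool) (p : Co1 R m) (g : ℂ) (v : L → ℂ),
      InReg k (U ∩ H828.XD k) c R₀ M₀ S p g v → P c B r R m S p g v

theorem inReg_mono {k : Fin 5} {K K' : Set C6} {c R₀ M M' : ℝ} {R : Region1} {m : Fin (R.n + 1)}
    {S : L → Bool} {p : Co1 R m} {g : ℂ} {v : L → ℂ} (h : InReg k K c R₀ M S p g v)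
    (hK : K ⊆ K') (hM : M' ≤ M) : InReg k K' c R₀ M' S p g v where
  far := h.far
  base := hK h.base
  y := hM.trans h.y
  al := h.al
  inr := h.inr
  ph := h.ph
  zone := h.zone
  sheet := h.sheet
  std := h.std

/-- Two clauses together. -/
theorem NearQ.and {k : Fin 5} {q₀ : C6} {P P' : ℝ → ℝ → ℝ → ∀ (R : Region1) (m : Fin (R.n + 1)),
    (L → Bool) → Co1 R m → ℂ → (L → ℂ) → Prop} (h : NearQ k q₀ P) (h' : NearQ k q₀ P')
    (hm : ∀ c B r B' r' R m S p g v, 0 < p.2.2.1 () → B ≤ B' → r' ≤ r → P c B r R m S p g v →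
      P c B' r' R m S p g v)
    (hm' : ∀ c B r B' r' R m S p g v, 0 < p.2.2.1 () → B ≤ B' → r' ≤ r → P' c B r R m S p g v →
      P' c B' r' R m S p g v) :
    NearQ k q₀ fun c B r R m S p g v => P c B r R m S p g v ∧ P' c B r R m S p g v := by
  obtain ⟨U, hU, c₀, hc₀, h⟩ := h
  obtain ⟨U', hU', c₀', hc₀', h'⟩ := h'
  refine ⟨U ∩ U', inter_mem hU hU', min c₀ c₀', lt_min hc₀ hc₀', fun c hc hcc => ?_⟩
  obtain ⟨R₁, hR₁, h⟩ := h c hc (hcc.trans (min_le_left _ _))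
  obtain ⟨R₁', hR₁', h'⟩ := h' c hc (hcc.trans (min_le_right _ _))
  refine ⟨max R₁ R₁', lt_max_of_lt_left hR₁, fun R₀ hR₀ => ?_⟩
  obtain ⟨M, B, r, hM, hB, hr, h⟩ := h R₀ ((le_max_left _ _).trans hR₀)
  obtain ⟨M', B', r', hM', hB', hr', h'⟩ := h' R₀ ((le_max_right _ _).trans hR₀)
  refine ⟨max M M', max B B', min r r', lt_max_of_lt_left hM, lt_max_of_lt_left hB,
    lt_min hr hr', fun R m S p g v hp => ?_⟩
  have hy : 0 < p.2.2.1 () := (lt_max_of_lt_left hM).trans_le hp.y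
  constructor
  · exact hm _ _ _ _ _ _ _ _ _ _ _ hy (le_max_left _ _) (min_le_left _ _) (h R m S p g v
      (inReg_mono hp (fun x hx => ⟨hx.1.1, hx.2⟩) (le_max_left _ _)))
  · exact hm' _ _ _ _ _ _ _ _ _ _ _ hy (le_max_right _ _) (min_le_right _ _) (h' R m S p g v
      (inReg_mono hp (fun x hx => ⟨hx.1.2, hx.2⟩) (le_max_right _ _)))

section Clauses

variable (O : H973.One) (k : Fin 5)

/-- All classes. -/
def ClT0 (c B _r : ℝ) (R : Region1) (m : Fin (R.n + 1)) (S : L → Bool) (p : Co1 R m) (g : ℂ)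
    (v : L → ℂ) : Prop := ∀ (j : L) (ξ : Fin 6 → ℝ) (d : Dir1 R m), IsCl ξ →
  |H973.th O j ξ S (toE k c p) (R.sht (toSp c p) g v) (fderiv ℝ (toE k c) p (evec p d))| ≤
    B * ‖ξ‖ * (Real.sqrt (p.2.2.1 ()) * H879.cst p d)

/-- Classes with equal numbers on the pair. -/
def ClT1 (c B _r : ℝ) (R : Region1) (m : Fin (R.n + 1)) (S : L → Bool) (p : Co1 R m) (g : ℂ)
    (v : L → ℂ) : Prop := ∀ (j : L) (ξ : Fin 6 → ℝ) (d : Dir1 R m), IsCl ξ →
  ξ k.castSucc = ξ k.succ →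
  |H973.th O j ξ S (toE k c p) (R.sht (toSp c p) g v) (fderiv ℝ (toE k c) p (evec p d))| ≤
    B * ‖ξ‖ * H879.cst p d

/-- The class of the pair. -/
def ClT2 (c B _r : ℝ) (R : Region1) (m : Fin (R.n + 1)) (S : L → Bool) (p : Co1 R m) (g : ℂ)
    (v : L → ℂ) : Prop := ∀ (j : L) (d : Dir1 R m),
  |H973.th O j (prc k) S (toE k c p) (R.sht (toSp c p) g v)
    (fderiv ℝ (toE k c) p (evec p d))| ≤ B * ((Real.sqrt (p.2.2.1 ()))⁻¹ * H879.cst p d)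

/-- Zero near the other roots. -/
def ClRoot (c _B r : ℝ) (R : Region1) (m : Fin (R.n + 1)) (S : L → Bool) (p : Co1 R m) (g : ℂ)
    (v : L → ℂ) : Prop := ∀ j : L, R.nk j = false → S j = false →
  (∃ l, ‖R.pos (toSp c p) j - R.oth (toSp c p) l‖ < r) →
  ∀ ξ, IsCl ξ → H973.th O j ξ S (toE k c p) (R.sht (toSp c p) g v) = 0

/-- Near marks have the same form. -/
def ClCol (c _B r : ℝ) (R : Region1) (m : Fin (R.n + 1)) (S : L → Bool) (p : Co1 R m) (g : ℂ)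
    (v : L → ℂ) : Prop := ∀ i j : L, i ≠ j → i.2 = j.2 → Close r S (toSp c p) g v i j →
  ∀ ξ, IsCl ξ → H973.th O i ξ S (toE k c p) (R.sht (toSp c p) g v) =
    H973.th O j ξ S (toE k c p) (R.sht (toSp c p) g v)

end Clauses

/-- **The five clauses give `AsyLoc`.** -/
theorem asyLoc_of_clauses {O : H973.One} {Th : Gauge}
    (hTh : ∀ j ξ S e v, Th.θ j ξ S e v = H973.th O j ξ S e v)
    (h0 : ∀ k, ∀ q₀ ∈ H828.XD k, NearQ k q₀ (ClT0 O k))
    (h1 : ∀ k, ∀ q₀ ∈ H828.XD k, NearQ k q₀ (ClT1 O k))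
    (h2 : ∀ k, ∀ q₀ ∈ H828.XD k, NearQ k q₀ (ClT2 O k))
    (h3 : ∀ k, ∀ q₀ ∈ H828.XD k, NearQ k q₀ (ClRoot O k))
    (h4 : ∀ k, ∀ q₀ ∈ H828.XD k, NearQ k q₀ (ClCol O k)) : AsyLoc Th := by
  intro k q₀ hq₀
  have m0 : ∀ c B r B' r' R m S p g v, 0 < p.2.2.1 () → B ≤ B' → r' ≤ r →
      ClT0 O k c B r R m S p g v → ClT0 O k c B' r' R m S p g v := by
    intro c B r B' r' R m S p g v hy hB hr h j ξ d hξ
    refine (h j ξ d hξ).trans ?_
    have := cst_nonneg hy d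
    gcongr
  have m1 : ∀ c B r B' r' R m S p g v, 0 < p.2.2.1 () → B ≤ B' → r' ≤ r →
      ClT1 O k c B r R m S p g v → ClT1 O k c B' r' R m S p g v := by
    intro c B r B' r' R m S p g v hy hB hr h j ξ d hξ h1
    refine (h j ξ d hξ h1).trans ?_
    have := cst_nonneg hy d
    gcongr
  have m2 : ∀ c B r B' r' R m S p g v, 0 < p.2.2.1 () → B ≤ B' → r' ≤ r →
      ClT2 O k c B r R m S p g v → ClT2 O k c B' r' R m S p g v := by
    intro c B r B' r' R m S p g v hy hB hr h j d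
    refine (h j d).trans ?_
    have := cst_nonneg hy d
    gcongr
  have m3 : ∀ c B r B' r' R m S p g v, 0 < p.2.2.1 () → B ≤ B' → r' ≤ r →
      ClRoot O k c B r R m S p g v → ClRoot O k c B' r' R m S p g v := by
    intro c B r B' r' R m S p g v _ _ hr h j a b ⟨l, hl⟩
    exact h j a b ⟨l, hl.trans_le hr⟩
  have m4 : ∀ c B r B' r' R m S p g v, 0 < p.2.2.1 () → B ≤ B' → r' ≤ r →
      ClCol O k c B r R m S p g v → ClCol O k c B' r' R m S p g v := by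
    intro c B r B' r' R m S p g v _ _ hr h i j a b hc
    exact h i j a b (close_mono hr hc)
  have m34 : ∀ c B r B' r' R m S p g v, 0 < p.2.2.1 () → B ≤ B' → r' ≤ r →
      (ClRoot O k c B r R m S p g v ∧ ClCol O k c B r R m S p g v) →
      ClRoot O k c B' r' R m S p g v ∧ ClCol O k c B' r' R m S p g v :=
    fun c B r B' r' R m S p g v hy hB hr h =>
      ⟨m3 _ _ _ _ _ _ _ _ _ _ _ hy hB hr h.1, m4 _ _ _ _ _ _ _ _ _ _ _ hy hB hr h.2⟩
  have m01 : ∀ c B r B' r' R m S p g v, 0 < p.2.2.1 () → B ≤ B' → r' ≤ r →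
      (ClT0 O k c B r R m S p g v ∧ ClT1 O k c B r R m S p g v) →
      ClT0 O k c B' r' R m S p g v ∧ ClT1 O k c B' r' R m S p g v :=
    fun c B r B' r' R m S p g v hy hB hr h =>
      ⟨m0 _ _ _ _ _ _ _ _ _ _ _ hy hB hr h.1, m1 _ _ _ _ _ _ _ _ _ _ _ hy hB hr h.2⟩
  have m234 : ∀ c B r B' r' R m S p g v, 0 < p.2.2.1 () → B ≤ B' → r' ≤ r →
      (ClT2 O k c B r R m S p g v ∧
        (ClRoot O k c B r R m S p g v ∧ ClCol O k c B r R m S p g v)) →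
      ClT2 O k c B' r' R m S p g v ∧
        (ClRoot O k c B' r' R m S p g v ∧ ClCol O k c B' r' R m S p g v) :=
    fun c B r B' r' R m S p g v hy hB hr h =>
      ⟨m2 _ _ _ _ _ _ _ _ _ _ _ hy hB hr h.1, m34 _ _ _ _ _ _ _ _ _ _ _ hy hB hr h.2⟩
  have h34 := (h3 k q₀ hq₀).and (h4 k q₀ hq₀) m3 m4
  have h234 := (h2 k q₀ hq₀).and h34 m2 m34
  have h01 := (h0 k q₀ hq₀).and (h1 k q₀ hq₀) m0 m1
  obtain ⟨U, hU, h⟩ := h01.and h234 m01 m234
  refine ⟨U, hU, ?_⟩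
  obtain ⟨c₀, hc₀, h⟩ := h
  refine ⟨c₀, hc₀, fun c hc hcc => ?_⟩
  obtain ⟨R₁, hR₁, h⟩ := h c hc hcc
  refine ⟨R₁, hR₁, fun R₀ hR₀ => ?_⟩
  obtain ⟨M₀, B, r, hM₀, hB, hr, h⟩ := h R₀ hR₀
  refine ⟨M₀, B, r, hM₀, hB, hr, fun R m S p g v hp => ?_⟩
  obtain ⟨⟨a0, a1⟩, a2, a3, a4⟩ := h R m S p g v hp
  constructor
  · intro j ξ d hξ
    rw [hTh]
    exact a0 j ξ d hξ
  · intro j ξ d hξ hξ'
    rw [hTh]
    exact a1 j ξ d hξ hξ'
  · intro j d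
    rw [hTh]
    exact a2 j d
  · intro j hj hs hl ξ hξ
    rw [hTh]
    exact a3 j hj hs hl ξ hξ
  · intro i j hij ht hc ξ hξ
    rw [hTh, hTh]
    exact a4 i j hij ht hc ξ hξ

end Vale.Agent.P273.H730

end
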