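import Vale.Agent.P273.H730.Asm0
import Vale.Agent.P273.H668.RecW

/-!
# P273, row ASY1 (helper730): the bound of a leg of the gauge from data of near marks, with weights
-/

noncomputable section

namespace Vale.Agent.P273.H730

open Set Filter H681 H95 H973
open H578 (Pt Nr del Brd cX pX PX LogN rad pb Kn chiT psiT)
open scoped Topology ContDiff

/-- The constant of the recursion. -/
def Cw (K : ℝ) : ℝ := (((7 : ℕ) : ℝ) ^ 2 * K ^ 7) * (2 * (((7 : ℕ) : ℝ) ^ 2 * K ^ 7) + 1) *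
  (2 + Kn 7)

theorem Cw_nonneg {K : ℝ} (hK : 1 ≤ K) : 0 ≤ Cw K := by
  have := H578.Kn_pos 7
  unfold Cw
  positivity

section rec

open H578 (SCl cut Small Off)

variable {n : ℕ} {X : Type*} [NormedAddCommGroup X] [NormedSpace ℝ X] {b : X → Fin 6 → ℂ}
  {P : X → Fin n → ℂ × ℂ} {a : Fin n → Prop} {e : X} {U : Set (Fin 6 → ℂ)}
  {η : (Fin 6 → ℂ) → ℂ → ℂ → ((Fin 6 → ℂ) × ℂ →L[ℝ] ℝ)}

/-- one entry of the table -/
theorem ent_of (hη : SCl U η) (hU : IsOpen U) (hbU : b e ∈ U)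
    (hb : ContDiffAt ℝ ∞ b e) (hP : ∀ k, a k → ContDiffAt ℝ ∞ (P · k) e)
    (hPt : ∀ k, a k → ∀ᶠ e' in 𝓝 e, Pt (b e') (P e' k)) {v : X} {A A' W K : ℝ} (hA : 0 ≤ A)
    (hW : 0 ≤ W) (hK : 1 ≤ K) {k l : Fin n}
    (h : a k → a l → Nr (2 * rad k) (b e) (P e k) (P e l) → A' ≤ K * A ∧
      (Nr (rad k) (b e) (P e k) (P e l) → ‖del η (b e) (P e k) (P e l)‖ ≤ A ∧
        ‖pb η b (P · k) e v - pb η b (P · l) e v‖ ≤ 2 * W ∧
        ∃ ζ ρ, 0 ≤ ρ ∧ ρ * A ≤ W ∧ LogN b (P · k) e v ζ ρ ∧ LogN b (P · l) e v ζ ρ)) :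
    H668.Ent (fun e => chiT a (b e) (P e) k l) (fun e => H578.psiT η a (b e) (P e) k l) e v K A
      ((2 + Kn n) * W) A' ((2 + Kn n) * W) := by
  have hKn := H578.Kn_pos n
  have hPt' : ∀ k, a k → Pt (b e) (P e k) := fun k hk => (hPt k hk).self_of_nhds
  have hc2 : Small (Fin 6) (2 * rad k) := H578.small_rad2 _
  have hc0 := H578.rad_pos k
  by_cases hkl : a k ∧ a l
  · have ec : (fun e => chiT a (b e) (P e) k l) = fun e => cut (rad k) (b e) (P e k) (P e l) := by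
      funext q
      unfold chiT
      rw [if_pos hkl]
    have ep : (fun e => H578.psiT η a (b e) (P e) k l) =
        fun e => cut (rad k) (b e) (P e k) (P e l) • del η (b e) (P e k) (P e l) := by
      funext q
      unfold H578.psiT chiT
      rw [if_pos hkl]
    by_cases hN : Nr (2 * rad k) (b e) (P e k) (P e l)
    · right
      obtain ⟨e1, e2⟩ := h hkl.1 hkl.2 hN
      have hps := H578.hasFDerivAt_psi hη hU hbU hb (hP k hkl.1) (hP l hkl.2) (hPt k hkl.1)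
        (hPt' l hkl.2) hc0 hc2
      have hB0 : 0 ≤ (2 + Kn n) * W := by positivity
      by_cases hN' : Nr (rad k) (b e) (P e k) (P e l)
      · obtain ⟨h3, h4, ζ, ρ, hρ, hρA, h5, h6⟩ := e2 hN'
        have h7 : |fderiv ℝ (fun e => chiT a (b e) (P e) k l) e v| ≤ Kn n * ρ :=
          H578.abs_fderiv_chiT_le (ζ := ζ) hb hP hPt' hρ fun _ _ _ => ⟨h5, h6⟩
        have h8 : Kn n * ρ * A ≤ Kn n * W := by
          rw [mul_assoc]
          exact mul_le_mul_of_nonneg_left hρA hKn.le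
        refine ⟨⟨(H578.contDiffAt_chiT hb hP hPt' k l).differentiableAt (by simp),
          (H578.contDiffAt_psiT hη hU hbU hb hP hPt k l).differentiableAt (by simp)⟩,
          ⟨H578.chiT_nonneg _ _ _ _ _, H578.chiT_le_one _ _ _ _ _⟩, ?_, ?_, ?_, e1, ?_⟩
        · rw [ep]
          exact H578.norm_psi_le (b := b e) hA (hPt' k hkl.1) hc0 (η := η) (q := P e l)
            fun _ => h3
        · refine (mul_le_mul_of_nonneg_right h7 hA).trans (h8.trans ?_)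
          have : 0 ≤ 2 * W := by positivity
          linarith
        · rw [ep]
          rw [ec] at h7
          refine (H578.norm_fderiv_psi_le hη hU hbU hb (hP k hkl.1) (hP l hkl.2) (hPt k hkl.1)
            (hPt' l hkl.2) hc0 hc2 hA (show 0 ≤ 2 * W by positivity)
            (show 0 ≤ Kn n * ρ by positivity) (fun _ => h3) (fun _ => h4) (fun _ => h7)).trans ?_
          linarith
        · nlinarith
      · have h0 : cut (rad k) (b e) (P e k) (P e l) = 0 := by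
          by_contra h0
          exact hN' (H578.nr_of_cut hc0 (hPt' k hkl.1).off h0)
        have h00 : fderiv ℝ (fun e => cut (rad k) (b e) (P e k) (P e l)) e = 0 :=
          H578.fderiv_cut_far hb (hP k hkl.1) (hP l hkl.2) (hPt' k hkl.1) (hPt' l hkl.2)
            hc0 hc2 hN'
        refine ⟨⟨(H578.contDiffAt_chiT hb hP hPt' k l).differentiableAt (by simp),
          (H578.contDiffAt_psiT hη hU hbU hb hP hPt k l).differentiableAt (by simp)⟩,
          ⟨H578.chiT_nonneg _ _ _ _ _, H578.chiT_le_one _ _ _ _ _⟩, ?_, ?_, ?_, e1, ?_⟩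
        · rw [ep]
          show ‖cut (rad k) (b e) (P e k) (P e l) • _‖ ≤ A
          rw [h0, zero_smul, norm_zero]
          exact hA
        · rw [ec, h00]
          simp only [_root_.zero_apply, abs_zero, zero_mul]
          exact hB0
        · rw [ep, hps.fderiv, h0, h00]
          simp only [zero_smul, zero_add, ContinuousLinearMap.smulRight_apply, _root_.zero_apply,
            norm_zero]
          exact hB0
        · nlinarith
    · left
      have hz : ∀ᶠ q in 𝓝 e, cut (rad k) (b q) (P q k) (P q l) = 0 :=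
        H578.cut_eventually_zero hb (hP k hkl.1) (hP l hkl.2) (hPt' k hkl.1) (hPt' l hkl.2)
          hc0 hc2 hN
      constructor
      · rw [ec]
        exact hz
      · rw [ep]
        filter_upwards [hz] with q hq
        rw [hq, zero_smul]
  · left
    have e1 : ∀ q, chiT a (b q) (P q) k l = 0 := fun q => by
      unfold chiT
      rw [if_neg hkl]
    refine ⟨Eventually.of_forall e1, Eventually.of_forall fun q => ?_⟩
    show chiT a (b q) (P q) k l • _ = 0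
    rw [e1 q, zero_smul]

/-- **the bound of the recursion in one direction**, with weights -/
theorem gfunT_weighted (hη : SCl U η) (hU : IsOpen U) (hbU : b e ∈ U)
    (hb : ContDiffAt ℝ ∞ b e) (hP : ∀ k, a k → ContDiffAt ℝ ∞ (P · k) e)
    (hPt : ∀ k, a k → ∀ᶠ e' in 𝓝 e, Pt (b e') (P e' k)) {v : X} {A : Fin n → ℝ} {W K : ℝ}
    (hA : ∀ k, 0 ≤ A k) (hW : 0 ≤ W) (hK : 1 ≤ K)
    (h : ∀ k, (∀ᶠ z in 𝓝 e, gfun (fun k l e => chiT a (b e) (P e) k l)
        (fun k l e => H578.psiT η a (b e) (P e) k l) k z = 0) ∨ ∀ l, l < k → a k → a l →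
      Nr (2 * rad k) (b e) (P e k) (P e l) → A l ≤ K * A k ∧
      (Nr (rad k) (b e) (P e k) (P e l) → ‖del η (b e) (P e k) (P e l)‖ ≤ A k ∧
        ‖pb η b (P · k) e v - pb η b (P · l) e v‖ ≤ 2 * W ∧
        ∃ ζ ρ, 0 ≤ ρ ∧ ρ * A k ≤ W ∧ LogN b (P · k) e v ζ ρ ∧ LogN b (P · l) e v ζ ρ))
    (k : Fin n) :
    ‖fderiv ℝ (gfun (fun k l e => chiT a (b e) (P e) k l)
        (fun k l e => H578.psiT η a (b e) (P e) k l) k) e v‖ ≤
      (((n : ℝ) ^ 2 * K ^ n) * (2 * ((n : ℝ) ^ 2 * K ^ n) + 1)) * ((2 + Kn n) * W) := by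
  have hKn := H578.Kn_pos n
  refine (H668.norm_fderiv_gfun_w (x := e) (v := v) (a := A) (a' := fun _ => (2 + Kn n) * W)
    (K := K) hA (fun _ => by positivity) hK (fun k => ?_) k).2.2
  rcases h k with h0 | h1
  · exact Or.inl h0
  exact Or.inr fun l hlk => ent_of hη hU hbU hb hP hPt (hA k) hW hK (h1 l hlk)

end rec

variable {X : Type*} [NormedAddCommGroup X] [NormedSpace ℝ X]
  {S : L → Bool} {t : Bool} {φ : X → E} {σ : X → L → ℂ} {p : X}

/-- The one mark part of a leg. -/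
def eleg (O : One) (ξ : Fin 6 → ℝ) (S : L → Bool) (j : L) (e : E) (v : L → ℂ) (w : E) : ℝ :=
  O.η ξ (S j) (prj j e) (v j) (prj j w)

/-- **weighted bound of the recursion along a map** -/
theorem gX_weighted (h : Brd S φ σ p) (O : One) {ξ : Fin 6 → ℝ} (hξ : IsCl ξ) {v : X}
    {A : Fin 7 → ℝ} {W K : ℝ} (hA : ∀ k, 0 ≤ A k) (hW : 0 ≤ W) (hK : 1 ≤ K)
    (hη : ∀ k, H973.fin S t (φ p) k → |eleg O ξ S (k, t) (φ p) (σ p) (fderiv ℝ φ p v)| ≤ W)
    (hd : ∀ k, (∀ᶠ z in 𝓝 p, gfun (cX S t φ σ p) (pX O ξ S t φ σ p) k z = 0) ∨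
      ∀ l, l < k → H973.fin S t (φ p) k → H973.fin S t (φ p) l →
        Nr (2 * rad k) (φ p).1 (PX S t φ σ p k) (PX S t φ σ p l) →
        A l ≤ K * A k ∧ (Nr (rad k) (φ p).1 (PX S t φ σ p k) (PX S t φ σ p l) →
          |del (etx O ξ) (φ p).1 (PX S t φ σ p k) (PX S t φ σ p l)| ≤ A k ∧
          ∃ ζ ρ, 0 ≤ ρ ∧ ρ * A k ≤ W ∧
            LogN (fun q => (φ q).1) (fun q => PX S t φ σ q k) p v ζ ρ ∧
            LogN (fun q => (φ q).1) (fun q => PX S t φ σ q l) p v ζ ρ)) (k : Fin 7) :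
    |fderiv ℝ (gfun (cX S t φ σ p) (pX O ξ S t φ σ p) k) p v| ≤ Cw K * W := by
  have key := gfunT_weighted (n := 7) (b := fun q => (φ q).1) (P := PX S t φ σ)
    (a := H973.fin S t (φ p)) (e := p) (v := v) (A := A) (W := W) (K := K)
    (scl_etx O hξ) H401.isOpen_XX h.mem h.contDiffAt_b
    (fun m hm => h.contDiffAt_PX hm) (fun m hm => h.pt hm) hA hW hK (fun k => ?_) k
  · rw [Real.norm_eq_abs] at key
    unfold Cw
    rw [mul_assoc _ (2 + Kn 7) W]
    exact key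
  rcases hd k with h0 | h1
  · exact Or.inl h0
  right
  intro l hlk hk hl hN
  obtain ⟨e1, e2⟩ := h1 l hlk hk hl hN
  refine ⟨e1, fun hN' => ?_⟩
  obtain ⟨h3, ζ, ρ, hρ, hρA, h5, h6⟩ := e2 hN'
  refine ⟨by rw [Real.norm_eq_abs]; exact h3, ?_, ζ, ρ, hρ, hρA, h5, h6⟩
  have h9 := hη k hk
  have h10 := hη l hl
  have e3 : pb (etx O ξ) (fun q => (φ q).1) (fun q => PX S t φ σ q k) p v =
      eleg O ξ S (k, t) (φ p) (σ p) (fderiv ℝ φ p v) := by
    rw [h.pb_eq O hξ hk]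
    rfl
  have e4 : pb (etx O ξ) (fun q => (φ q).1) (fun q => PX S t φ σ q l) p v =
      eleg O ξ S (l, t) (φ p) (σ p) (fderiv ℝ φ p v) := by
    rw [h.pb_eq O hξ hl]
    rfl
  rw [e3, e4, Real.norm_eq_abs]
  have h11 := abs_sub (eleg O ξ S (k, t) (φ p) (σ p) (fderiv ℝ φ p v))
    (eleg O ξ S (l, t) (φ p) (σ p) (fderiv ℝ φ p v))
  linarith

/-- **weighted bound of a leg of the gauge** -/
theorem leg_weighted (h : Brd S φ σ p) (O : One) {ξ : Fin 6 → ℝ} (hξ : IsCl ξ) {v : X}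
    {A : Fin 7 → ℝ} {W K : ℝ} (hA : ∀ k, 0 ≤ A k) (hW : 0 ≤ W) (hK : 1 ≤ K)
    (hη : ∀ k, |eleg O ξ S (k, t) (φ p) (σ p) (fderiv ℝ φ p v)| ≤ W)
    (hd : ∀ k, (∀ᶠ z in 𝓝 p, gfun (cX S t φ σ p) (pX O ξ S t φ σ p) k z = 0) ∨
      ∀ l, l < k → H973.fin S t (φ p) k → H973.fin S t (φ p) l →
        Nr (2 * rad k) (φ p).1 (PX S t φ σ p k) (PX S t φ σ p l) →
        A l ≤ K * A k ∧ (Nr (rad k) (φ p).1 (PX S t φ σ p k) (PX S t φ σ p l) →
          |del (etx O ξ) (φ p).1 (PX S t φ σ p k) (PX S t φ σ p l)| ≤ A k ∧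
          ∃ ζ ρ, 0 ≤ ρ ∧ ρ * A k ≤ W ∧
            LogN (fun q => (φ q).1) (fun q => PX S t φ σ q k) p v ζ ρ ∧
            LogN (fun q => (φ q).1) (fun q => PX S t φ σ q l) p v ζ ρ)) (k : Fin 7) :
    |th O (k, t) ξ S (φ p) (σ p) (fderiv ℝ φ p v)| ≤ (1 + Cw K) * W := by
  have h1 := gX_weighted h O hξ hA hW hK (fun k _ => hη k) hd k
  have h2 := congrArg (fun f : X →L[ℝ] ℝ => f v) (h.leg_eq O hξ (t := t) k)
  have h3 : th O (k, t) ξ S (φ p) (σ p) (fderiv ℝ φ p v) =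
      eleg O ξ S (k, t) (φ p) (σ p) (fderiv ℝ φ p v) +
        fderiv ℝ (gfun (cX S t φ σ p) (pX O ξ S t φ σ p) k) p v := h2
  rw [h3, add_mul, one_mul]
  exact (abs_add_le _ _).trans (add_le_add (hη k) h1)

/-- `LogP` is `LogN` for a mark in the chart `x` -/
theorem logN_of_logP (h : Brd S φ σ p) {k : Fin 7} (hs : S (k, t) = false) {v : X} {ζ : ℂ} {ρ : ℝ}
    (hl : LogP (φ p).1 (fderiv ℝ φ p v).1 ((φ p).2 (k, t)) ((fderiv ℝ φ p v).2 (k, t)) ζ ρ) :
    LogN (fun q => (φ q).1) (fun q => PX S t φ σ q k) p v ζ ρ := by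
  intro i
  have h1 : ∀ q, (PX S t φ σ q k).1 = (φ q).2 (k, t) := fun q => by
    unfold PX PP Xp
    simp only [hs, Bool.false_eq_true, if_false]
  simp only [h1]
  have hd : HasFDerivAt φ (fderiv ℝ φ p) p := (h.smφ.differentiableAt (by simp)).hasFDerivAt
  have h2 : HasFDerivAt (fun q => (φ q).2 (k, t) - (φ q).1 i)
      (((ContinuousLinearMap.proj (R := ℝ) (k, t)).comp ((ContinuousLinearMap.snd ℝ C6 (L → ℂ)).comp
        (fderiv ℝ φ p))) - ((ContinuousLinearMap.proj (R := ℝ) i).comp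
        ((ContinuousLinearMap.fst ℝ C6 (L → ℂ)).comp (fderiv ℝ φ p)))) p :=
    (hasFDerivAt_pi'.1 hd.snd (k, t)).sub (hasFDerivAt_pi'.1 hd.fst i)
  rw [h2.fderiv]
  exact hl i

end Vale.Agent.P273.H730

end
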